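import Vale.Agent.P039.Bn.Defs
import Mathlib.LinearAlgebra.Matrix.Rank
import Mathlib.LinearAlgebra.Matrix.ToLinearEquiv
import Mathlib.Algebra.Field.ZMod

/-! The rank inequality: faces inside a connected proper part of a map. -/

namespace Vale.Agent.P039.H155

open Bn Finset

theorem jne1 (j : Fin 3) : j ≠ j + 1 := by revert j; decide
theorem jne2 (j : Fin 3) : j ≠ j + 2 := by revert j; decide

theorem z2 (a : ZMod 2) : a + a = 0 := by
  have : (2 : ZMod 2) = 0 := by decide
  rw [← two_mul, this, zero_mul]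

theorem z2_eq {a b : ZMod 2} : a + b = 0 ↔ a = b := by
  revert a b; decide

theorem finrank_ker_le_one {ι κ : Type*} [Fintype ι] [Fintype κ]
    (M : Matrix κ ι (ZMod 2)) (h : ∀ z : ι → ZMod 2, M.mulVec z = 0 → ∀ f g, z f = z g) :
    Module.finrank (ZMod 2) (LinearMap.ker M.mulVecLin) ≤ 1 := by
  classical
  have : LinearMap.ker M.mulVecLin ≤ Submodule.span (ZMod 2) {(fun _ => 1 : ι → ZMod 2)} := by
    intro z hz
    rw [LinearMap.mem_ker, Matrix.mulVecLin_apply] at hz
    have hc := h z hz
    rw [Submodule.mem_span_singleton]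
    by_cases hι : Nonempty ι
    · obtain ⟨i⟩ := hι
      refine ⟨z i, ?_⟩
      funext j
      simp [hc j i]
    · refine ⟨0, ?_⟩
      funext j
      exact absurd ⟨j⟩ hι
  calc _ ≤ Module.finrank (ZMod 2)
        (Submodule.span (ZMod 2) {(fun _ => 1 : ι → ZMod 2)}) := Submodule.finrank_mono this
    _ ≤ 1 := by
      have := finrank_span_le_card (R := ZMod 2) ({(fun _ => 1 : ι → ZMod 2)} : Set (ι → ZMod 2))
      simpa using this

theorem card_le_rank_add_one {ι κ : Type*} [Fintype ι] [Fintype κ]
    (M : Matrix κ ι (ZMod 2)) (h : ∀ z : ι → ZMod 2, M.mulVec z = 0 → ∀ f g, z f = z g) :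
    Fintype.card ι ≤ M.rank + 1 := by
  have h1 := LinearMap.finrank_range_add_finrank_ker M.mulVecLin
  have h2 := finrank_ker_le_one M h
  rw [Module.finrank_fintype_fun_eq_card] at h1
  unfold Matrix.rank
  omega

theorem card_le_rank {ι κ : Type*} [Fintype ι] [Fintype κ]
    (M : Matrix κ ι (ZMod 2)) (h : ∀ z : ι → ZMod 2, M.mulVec z = 0 → z = 0) :
    Fintype.card ι ≤ M.rank := by
  have h1 := LinearMap.finrank_range_add_finrank_ker M.mulVecLin
  have h2 : LinearMap.ker M.mulVecLin = ⊥ := by
    rw [LinearMap.ker_eq_bot']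
    intro z hz
    exact h z hz
  rw [Module.finrank_fintype_fun_eq_card, h2, finrank_bot] at h1
  unfold Matrix.rank
  omega

variable {B W V : Type}

/-- a function on the faces that agrees on the faces of every black is constant -/
theorem const_of_black {α : Type*} (M : PMap B W V) (hconn : M.Conn) (u : V → α)
    (h : ∀ b i j, u (M.c i b) = u (M.c j b)) (v v' : V) : u v = u v' := by
  obtain ⟨j, b, rfl⟩ := M.surj v
  obtain ⟨j', b', rfl⟩ := M.surj v'
  have key : ∀ x y, Relation.EqvGen (fun x y => ∃ j, M.c j x = M.c j y) x y →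
      u (M.c 0 x) = u (M.c 0 y) := by
    intro x y hxy
    induction hxy with
    | rel x y h1 =>
      obtain ⟨j, hj⟩ := h1
      rw [h x 0 j, hj, h y j 0]
    | refl x => rfl
    | symm x y _ ih => exact ih.symm
    | trans x y z _ _ ih1 ih2 => exact ih1.trans ih2
  rw [h b j 0, key _ _ (hconn b b'), h b' 0 j']

/-- a function on the whites that agrees on the whites of every black is constant -/
theorem const_of_black' {α : Type*} (M : PMap B W V) (hconn : M.Conn) (x : W → α)
    (h : ∀ b i j, x (M.e i b) = x (M.e j b)) (w w' : W) : x w = x w' := by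
  have key0 : ∀ j b b', Relation.EqvGen (fun x y => M.e (j + 1) y = M.e (j + 2) x) b b' →
      x (M.e 0 b) = x (M.e 0 b') := by
    intro j b b' hbb
    induction hbb with
    | rel y z h1 => rw [h y 0 (j + 2), ← h1, h z (j + 1) 0]
    | refl x => rfl
    | symm x y _ ih => exact ih.symm
    | trans x y z _ _ ih1 ih2 => exact ih1.trans ih2
  have key : ∀ b b', Relation.EqvGen (fun x y => ∃ j, M.c j x = M.c j y) b b' →
      x (M.e 0 b) = x (M.e 0 b') := by
    intro b b' hbb
    induction hbb with
    | rel y z h1 =>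
      obtain ⟨j, hj⟩ := h1
      exact key0 j _ _ (M.exact j _ _ hj)
    | refl x => rfl
    | symm x y _ ih => exact ih.symm
    | trans x y z _ _ ih1 ih2 => exact ih1.trans ih2
  have h1 := key _ _ (hconn ((M.e 0).symm w) ((M.e 0).symm w'))
  simpa using h1

section

variable [Fintype B] [Fintype W] [Fintype V] (M : PMap B W V)

open Classical in
/-- the edges inside `(S, T)` -/
noncomputable def EX (S : Finset B) (T : Finset W) : Finset (B × Fin 3) :=
  (univ : Finset (B × Fin 3)).filter (fun p => p.1 ∈ S ∧ M.e p.2 p.1 ∈ T)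

omit [Fintype W] [Fintype V] in
theorem mem_EX {S : Finset B} {T : Finset W} {p : B × Fin 3} :
    p ∈ EX M S T ↔ p.1 ∈ S ∧ M.e p.2 p.1 ∈ T := by
  simp [EX]

open Classical in
theorem shift_sum (q : Fin 3 → Prop) :
    ∑ j : Fin 3, ((if q (j + 1) then (1 : ZMod 2) else 0) + (if q (j + 2) then 1 else 0)) = 0 := by
  rw [Finset.sum_add_distrib]
  have e1 : ∑ j : Fin 3, (if q (j + 1) then (1 : ZMod 2) else 0) =
      ∑ j : Fin 3, (if q j then (1 : ZMod 2) else 0) :=
    Equiv.sum_comp (Equiv.addRight (1 : Fin 3)) (fun j => if q j then (1 : ZMod 2) else 0)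
  have e2 : ∑ j : Fin 3, (if q (j + 2) then (1 : ZMod 2) else 0) =
      ∑ j : Fin 3, (if q j then (1 : ZMod 2) else 0) :=
    Equiv.sum_comp (Equiv.addRight (2 : Fin 3)) (fun j => if q j then (1 : ZMod 2) else 0)
  rw [e1, e2, z2]

open Classical in
/-- incidence of the face `v` and the edge `(b, j)` -/
noncomputable def gg (v : V) (b : B) (j : Fin 3) : ZMod 2 :=
  (if M.c (j + 1) b = v then (1 : ZMod 2) else 0) + (if M.c (j + 2) b = v then 1 else 0)

open Classical in
omit [Fintype B] [Fintype W] [Fintype V] in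
theorem orth_black (S : Finset B) (T : Finset W) (v : V)
    (hI : ∀ b j, M.c j b = v → b ∈ S ∧ ∀ i, i ≠ j → M.e i b ∈ T) (b : B) :
    ∑ j : Fin 3, (if M.e j b ∈ T then gg M v b j else 0) = 0 := by
  have h1 : ∀ j : Fin 3, (if M.e j b ∈ T then gg M v b j else 0) =
      (if M.c (j + 1) b = v then (1 : ZMod 2) else 0) + (if M.c (j + 2) b = v then 1 else 0) := by
    intro j
    by_cases h : M.e j b ∈ T
    · rw [if_pos h]; rfl
    · rw [if_neg h, if_neg (fun h2 => h ((hI b _ h2).2 j (jne1 j))),
        if_neg (fun h2 => h ((hI b _ h2).2 j (jne2 j))), add_zero]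
  rw [Finset.sum_congr rfl fun j _ => h1 j]
  exact shift_sum (fun j => M.c j b = v)

open Classical in
omit [Fintype B] [Fintype W] [Fintype V] in
theorem orth_white (S : Finset B) (T : Finset W) (v : V)
    (hI : ∀ b j, M.c j b = v → b ∈ S ∧ ∀ i, i ≠ j → M.e i b ∈ T) (w : W) :
    ∑ j : Fin 3, (if (M.e j).symm w ∈ S then gg M v ((M.e j).symm w) j else 0) = 0 := by
  have h1 : ∀ j : Fin 3, (if (M.e j).symm w ∈ S then gg M v ((M.e j).symm w) j else 0) =
      (if M.cw (j + 1) w = v then (1 : ZMod 2) else 0) + (if M.cw (j + 2) w = v then 1 else 0) := by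
    intro j
    have a1 : M.c (j + 1) ((M.e j).symm w) = M.cw (j + 1) w :=
      M.cw_symm (j + 1) j (jne1 j) w
    have a2 : M.c (j + 2) ((M.e j).symm w) = M.cw (j + 2) w :=
      M.cw_symm (j + 2) j (jne2 j) w
    by_cases h : (M.e j).symm w ∈ S
    · rw [if_pos h]; unfold gg; rw [a1, a2]
    · rw [if_neg h, if_neg (fun h2 => h (hI _ (j + 1) (a1.trans h2)).1),
        if_neg (fun h2 => h (hI _ (j + 2) (a2.trans h2)).1), add_zero]
  rw [Finset.sum_congr rfl fun j _ => h1 j]
  exact shift_sum (fun j => M.cw j w = v)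

omit [Fintype W] in
/-- **Rank inequality.** `I` is a set of faces all of whose vertices lie in the connected set
`(S, T)`; not all faces are in `I`. -/
theorem rank_ineq (hconn : M.Conn) (S : Finset B) (T : Finset W) (I : Finset V)
    (hI : ∀ v ∈ I, ∀ b j, M.c j b = v → b ∈ S ∧ ∀ i, i ≠ j → M.e i b ∈ T)
    (hne : ∃ v, v ∉ I)
    (hlc : ∀ (y : B → ZMod 2) (z : W → ZMod 2),
      (∀ b ∈ S, ∀ j, M.e j b ∈ T → y b = z (M.e j b)) →
      ∃ a, (∀ b ∈ S, y b = a) ∧ ∀ w ∈ T, z w = a) :
    I.card + S.card + T.card ≤ (EX M S T).card + 1 := by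
  classical
  let P : Matrix (EX M S T) I (ZMod 2) := fun p v => gg M v.1 p.1.1 p.1.2
  let Q : Matrix (EX M S T) (S ⊕ T) (ZMod 2) := fun p x =>
    Sum.elim (fun b => if p.1.1 = b.1 then (1 : ZMod 2) else 0)
      (fun w => if M.e p.1.2 p.1.1 = w.1 then (1 : ZMod 2) else 0) x
  have hP : ∀ u : I → ZMod 2, P.mulVec u = 0 → u = 0 := by
    intro u hu
    let u' : V → ZMod 2 := fun v => if h : v ∈ I then u ⟨v, h⟩ else 0
    have hval : ∀ p : EX M S T, P.mulVec u p = u' (M.c (p.1.2 + 1) p.1.1) +
        u' (M.c (p.1.2 + 2) p.1.1) := by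
      intro p
      have hs : ∀ v0 : V, ∑ v : I, (if v0 = v.1 then (1 : ZMod 2) else 0) * u v = u' v0 := by
        intro v0
        by_cases hv : v0 ∈ I
        · rw [Finset.sum_eq_single (⟨v0, hv⟩ : I)]
          · simp only [if_pos, one_mul, u', dif_pos hv]
          · intro v _ hne'
            rw [if_neg (fun h => hne' (Subtype.ext h.symm)), zero_mul]
          · intro h; exact absurd (mem_univ _) h
        · simp only [u', dif_neg hv]
          apply Finset.sum_eq_zero
          intro v _
          rw [if_neg (fun h : v0 = v.1 => hv (by rw [h]; exact v.2)), zero_mul]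
      simp only [Matrix.mulVec, dotProduct, P, gg, add_mul, Finset.sum_add_distrib, hs]
    have hall : ∀ (b : B) (j : Fin 3), u' (M.c (j + 1) b) = u' (M.c (j + 2) b) := by
      intro b j
      by_cases hE : (b, j) ∈ EX M S T
      · have h1 := congrFun hu ⟨(b, j), hE⟩
        rw [hval] at h1
        exact z2_eq.1 h1
      · rw [mem_EX] at hE
        have k1 : M.c (j + 1) b ∉ I := fun h => hE ⟨(hI _ h b (j + 1) rfl).1,
          (hI _ h b (j + 1) rfl).2 j (jne1 j)⟩
        have k2 : M.c (j + 2) b ∉ I := fun h => hE ⟨(hI _ h b (j + 2) rfl).1,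
          (hI _ h b (j + 2) rfl).2 j (jne2 j)⟩
        simp only [u', dif_neg k1, dif_neg k2]
    have hall' : ∀ b i j, u' (M.c i b) = u' (M.c j b) := by
      intro b i j
      have a0 := hall b 0
      have a1 := hall b 1
      have a2 := hall b 2
      change u' (M.c 1 b) = u' (M.c 2 b) at a0
      change u' (M.c 2 b) = u' (M.c 0 b) at a1
      change u' (M.c 0 b) = u' (M.c 1 b) at a2
      fin_cases i <;> fin_cases j <;> simp_all
    obtain ⟨v0, hv0⟩ := hne
    funext v
    have h3 := const_of_black M hconn u' hall' v.1 v0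
    simp only [u', dif_neg hv0, dif_pos v.2] at h3
    exact h3
  have hQ : ∀ y : S ⊕ T → ZMod 2, Q.mulVec y = 0 → ∀ s t, y s = y t := by
    intro y hy
    let yb : B → ZMod 2 := fun b => if h : b ∈ S then y (Sum.inl ⟨b, h⟩) else 0
    let yw : W → ZMod 2 := fun w => if h : w ∈ T then y (Sum.inr ⟨w, h⟩) else 0
    have hval : ∀ p : EX M S T, Q.mulVec y p = yb p.1.1 + yw (M.e p.1.2 p.1.1) := by
      intro p
      have hp := (mem_EX M).1 p.2
      simp only [Matrix.mulVec, dotProduct, Q, Fintype.sum_sum_type, Sum.elim_inl, Sum.elim_inr]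
      congr 1
      · rw [Finset.sum_eq_single (⟨p.1.1, hp.1⟩ : S)]
        · simp only [if_pos, one_mul, yb, dif_pos hp.1]
        · intro v _ hne'
          rw [if_neg (fun h => hne' (Subtype.ext h.symm)), zero_mul]
        · intro h; exact absurd (mem_univ _) h
      · rw [Finset.sum_eq_single (⟨M.e p.1.2 p.1.1, hp.2⟩ : T)]
        · simp only [if_pos, one_mul, yw, dif_pos hp.2]
        · intro v _ hne'
          rw [if_neg (fun h => hne' (Subtype.ext h.symm)), zero_mul]
        · intro h; exact absurd (mem_univ _) h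
    obtain ⟨a, ha1, ha2⟩ := hlc yb yw (by
      intro b hb j hj
      have h1 := congrFun hy ⟨(b, j), (mem_EX M).2 ⟨hb, hj⟩⟩
      rw [hval] at h1
      exact z2_eq.1 h1)
    have key : ∀ s, y s = a := by
      rintro (⟨b, hb⟩ | ⟨w, hw⟩)
      · rw [← ha1 b hb]; simp only [yb, dif_pos hb]
      · rw [← ha2 w hw]; simp only [yw, dif_pos hw]
    intro s t
    rw [key s, key t]
  have hPQ : P.transpose * Q = 0 := by
    ext v x
    rw [Matrix.mul_apply, Matrix.zero_apply]
    rcases x with b' | w
    · have h0 : ∑ p : EX M S T, P.transpose v p * Q p (Sum.inl b') =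
          ∑ p ∈ EX M S T, gg M v.1 p.1 p.2 * (if p.1 = b'.1 then 1 else 0) :=
        Finset.sum_coe_sort (EX M S T)
          (fun p => gg M v.1 p.1 p.2 * (if p.1 = b'.1 then (1 : ZMod 2) else 0))
      rw [h0, EX, Finset.sum_filter, Fintype.sum_prod_type,
        Finset.sum_eq_single b'.1]
      · refine Eq.trans ?_ (orth_black M S T v.1 (hI v.1 v.2) b'.1)
        apply Finset.sum_congr rfl
        intro j _
        simp only [b'.2, true_and, if_pos, mul_one]
      · intro b _ hb
        apply Finset.sum_eq_zero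
        intro j _
        simp only [if_neg hb, mul_zero, ite_self]
      · intro h; exact absurd (mem_univ _) h
    · have h0 : ∑ p : EX M S T, P.transpose v p * Q p (Sum.inr w) =
          ∑ p ∈ EX M S T, gg M v.1 p.1 p.2 * (if M.e p.2 p.1 = w.1 then 1 else 0) :=
        Finset.sum_coe_sort (EX M S T)
          (fun p => gg M v.1 p.1 p.2 * (if M.e p.2 p.1 = w.1 then (1 : ZMod 2) else 0))
      rw [h0, EX, Finset.sum_filter, Fintype.sum_prod_type_right]
      refine Eq.trans ?_ (orth_white M S T v.1 (hI v.1 v.2) w.1)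
      apply Finset.sum_congr rfl
      intro j _
      rw [Finset.sum_eq_single ((M.e j).symm w.1)]
      · simp only [Equiv.apply_symm_apply, w.2, and_true, if_pos, mul_one]
      · intro b _ hb
        have : M.e j b ≠ w.1 := fun h => hb (by rw [← h, Equiv.symm_apply_apply])
        simp only [if_neg this, mul_zero, ite_self]
      · intro h; exact absurd (mem_univ _) h
  have r1 := card_le_rank P hP
  have r2 := card_le_rank_add_one Q hQ
  have r3 := Matrix.rank_add_rank_le_card_of_mul_eq_zero hPQ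
  rw [Matrix.rank_transpose] at r3
  simp only [Fintype.card_coe, Fintype.card_sum] at r1 r2 r3
  omega

end

end Vale.Agent.P039.H155
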